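import Vale.Agent.P062.Sym

namespace Vale.Agent.P062

/-- transposition of a 16 x 16 board -/
def trS : List (ℕ × ℕ) :=
  [(120, 0xff00ff00ff00ff00ff00ff00ff00ff00), (60, 0xf0f0f0f0f0f0f0f00000000000000000f0f0f0f0f0f0f0f0), (30, 0xcccccccc00000000cccccccc00000000cccccccc00000000cccccccc), (15, 0xaaaa0000aaaa0000aaaa0000aaaa0000aaaa0000aaaa0000aaaa0000aaaa)]

/-- reversal of the rows -/
def fxS : List (ℕ × ℕ) :=
  [(8, 0xff00ff00ff00ff00ff00ff00ff00ff00ff00ff00ff00ff00ff00ff00ff00ff), (4, 0xf0f0f0f0f0f0f0f0f0f0f0f0f0f0f0f0f0f0f0f0f0f0f0f0f0f0f0f0f0f0f0f), (2, 0x3333333333333333333333333333333333333333333333333333333333333333), (1, 0x5555555555555555555555555555555555555555555555555555555555555555)]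

/-- reversal of the columns -/
def fyS : List (ℕ × ℕ) :=
  [(128, 0xffffffffffffffffffffffffffffffff), (64, 0xffffffffffffffff0000000000000000ffffffffffffffff), (32, 0xffffffff00000000ffffffff00000000ffffffff00000000ffffffff), (16, 0xffff0000ffff0000ffff0000ffff0000ffff0000ffff0000ffff0000ffff)]

theorem isT_tr : IsT 16 256 (runS trS) :=
  isT_run (by decide +kernel) (fun i => i % 16 * 16 + i / 16) (symm true 1 1 (0, 0))
    (good_symm _ _ _ _) (by decide +kernel)

theorem isT_fx : IsT 16 256 (runS fxS) :=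
  isT_run (by decide +kernel) (fun i => 15 - i % 16 + 16 * (i / 16)) (symm false (-1) 1 (15, 0))
    (good_symm _ _ _ _) (by decide +kernel)

theorem isT_fy : IsT 16 256 (runS fyS) :=
  isT_run (by decide +kernel) (fun i => i % 16 + 16 * (15 - i / 16)) (symm false 1 (-1) (0, 15))
    (good_symm _ _ _ _) (by decide +kernel)

theorem t100 : IsT 16 256 (fun x => runS trS x) := isT_tr
theorem t010 : IsT 16 256 (fun x => runS fxS x) := isT_fx
theorem t001 : IsT 16 256 (fun x => runS fyS x) := isT_fy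
theorem t110 : IsT 16 256 (fun x => runS fxS (runS trS x)) := isT_fx.comp isT_tr
theorem t101 : IsT 16 256 (fun x => runS fyS (runS trS x)) := isT_fy.comp isT_tr
theorem t011 : IsT 16 256 (fun x => runS fyS (runS fxS x)) := isT_fy.comp isT_fx
theorem t111 : IsT 16 256 (fun x => runS fyS (runS fxS (runS trS x))) := isT_fy.comp (isT_fx.comp isT_tr)

end Vale.Agent.P062
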