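import Mathlib

namespace Vale.Agent.P062

/-- A cell of the square grid. -/
abbrev Cell := ℤ × ℤ

/-- The hexomino Snaky. -/
def snaky : Finset Cell := {(0, 0), (1, 0), (2, 0), (3, 0), (3, 1), (4, 1)}

/-- The signed permutation maps of the grid: swap the coordinates or not, then change signs. -/
def rot (s : Bool) (a b : ℤˣ) (p : Cell) : Cell :=
  if s then ((a : ℤ) * p.2, (b : ℤ) * p.1) else ((a : ℤ) * p.1, (b : ℤ) * p.2)

/-- The allowed copies of Snaky. -/
def IsCopy (C : Finset Cell) : Prop :=
  ∃ (s : Bool) (a b : ℤˣ) (t : Cell), C = snaky.image (fun p => t + rot s a b p)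

/-- A set of cells that contains an allowed copy. -/
def HasCopy (A : Finset Cell) : Prop := ∃ C, IsCopy C ∧ C ⊆ A

/-- The list of the first `n` moves of Breaker, when Breaker plays the sequence `b`. -/
def hist (b : ℕ → Cell) (n : ℕ) : List Cell := (List.range n).map b

/-- Maker's cells after its first `n` moves, when Maker follows `σ`
(Maker's next move as a function of Breaker's moves so far) and Breaker plays `b`. -/
def makerCells (σ : List Cell → Cell) (b : ℕ → Cell) (n : ℕ) : Finset Cell :=
  (Finset.range n).image (fun k => σ (hist b k))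

/-- Breaker's cells after its first `n` moves. -/
def breakerCells (b : ℕ → Cell) (n : ℕ) : Finset Cell := (Finset.range n).image b

/-- Maker's move number `k` (counted from `0`) claims a previously unclaimed cell. -/
def MakerLegal (σ : List Cell → Cell) (b : ℕ → Cell) (k : ℕ) : Prop :=
  σ (hist b k) ∉ makerCells σ b k ∧ σ (hist b k) ∉ breakerCells b k

/-- Breaker's move number `k` claims a previously unclaimed cell. -/
def BreakerLegal (σ : List Cell → Cell) (b : ℕ → Cell) (k : ℕ) : Prop :=
  b k ∉ makerCells σ b (k + 1) ∧ b k ∉ breakerCells b k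

/-- Maker, moving first on the empty board, has a winning strategy: against every legal play of
Breaker it owns an allowed copy after finitely many legal moves. -/
def MakerWins : Prop :=
  ∃ σ : List Cell → Cell, ∀ b : ℕ → Cell, (∀ k, BreakerLegal σ b k) →
    ∃ n, (∀ k < n, MakerLegal σ b k) ∧ HasCopy (makerCells σ b n)

end Vale.Agent.P062
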