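import Vale.Agent.P062.Sym

namespace Vale.Agent.P062

theorem makerWins_of_W {w bx Z : ℕ} (h : W w bx 0 Z) : MakerWins := by
  have h0 : cells w 0 = ∅ := by
    ext c
    simp [cells]
  have := h.2
  rw [h0] at this
  exact makerWins_of_WS this

end Vale.Agent.P062
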