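import Vale.Agent.P062.Defs

namespace Vale.Agent.P062

/-- Maker to move wins within `n` moves from the position (Maker's cells, Breaker's cells). -/
def Win : ℕ → Finset Cell → Finset Cell → Prop
  | 0, A, _ => HasCopy A
  | n + 1, A, B => HasCopy A ∨ ∃ m, m ∉ A ∧ m ∉ B ∧
      ∀ b, b ∉ insert m A → b ∉ B → Win n (insert m A) (insert b B)

theorem HasCopy.mono {A A' : Finset Cell} (h : A ⊆ A') (hA : HasCopy A) : HasCopy A' := by
  obtain ⟨C, hC, hs⟩ := hA
  exact ⟨C, hC, hs.trans h⟩

theorem Win.of_hasCopy {n : ℕ} {A B : Finset Cell} (h : HasCopy A) : Win n A B := by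
  cases n with
  | zero => exact h
  | succ n => exact Or.inl h

theorem Win.succ {n : ℕ} {A B : Finset Cell} (h : Win n A B) : Win (n + 1) A B := by
  induction n generalizing A B with
  | zero => exact Or.inl h
  | succ n ih =>
    rcases h with h | ⟨m, h1, h2, h3⟩
    · exact Or.inl h
    · exact Or.inr ⟨m, h1, h2, fun b hb1 hb2 => ih (h3 b hb1 hb2)⟩

theorem Win.mono {n n' : ℕ} (hn : n ≤ n') {A B : Finset Cell} (h : Win n A B) : Win n' A B := by
  induction hn with
  | refl => exact h
  | step _ ih => exact ih.succ

/-! ### From `Win` to strategies -/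

open Classical in
/-- A good move in the position. -/
noncomputable def mv (A B : Finset Cell) : Cell :=
  if h : ∃ m, m ∉ A ∧ m ∉ B ∧ ∀ n, Win (n + 1) A B →
      (¬ ∃ k, k < n + 1 ∧ Win k A B) →
      ∀ b, b ∉ insert m A → b ∉ B → Win n (insert m A) (insert b B) then h.choose else (0, 0)

theorem mv_spec {n : ℕ} {A B : Finset Cell} (h : Win (n + 1) A B) (h0 : ¬ HasCopy A)
    (hmin : ¬ ∃ k, k < n + 1 ∧ Win k A B) :
    mv A B ∉ A ∧ mv A B ∉ B ∧
      ∀ b, b ∉ insert (mv A B) A → b ∉ B → Win n (insert (mv A B) A) (insert b B) := by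
  have hex : ∃ m, m ∉ A ∧ m ∉ B ∧ ∀ n, Win (n + 1) A B →
      (¬ ∃ k, k < n + 1 ∧ Win k A B) →
      ∀ b, b ∉ insert m A → b ∉ B → Win n (insert m A) (insert b B) := by
    rcases h with h | ⟨m, h1, h2, h3⟩
    · exact absurd h h0
    · refine ⟨m, h1, h2, ?_⟩
      intro n' hn' hmin' b hb1 hb2
      have hnn : n' = n := by
        by_contra hne
        rcases Nat.lt_or_gt_of_ne hne with hlt | hgt
        · exact hmin ⟨n' + 1, by omega, hn'⟩
        · exact hmin' ⟨n + 1, by omega, Or.inr ⟨m, h1, h2, h3⟩⟩
      subst hnn
      exact h3 b hb1 hb2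
  unfold mv
  rw [dif_pos hex]
  obtain ⟨h1, h2, h3⟩ := hex.choose_spec
  exact ⟨h1, h2, fun b hb1 hb2 => h3 n h hmin b hb1 hb2⟩

/-- One round: Maker plays `mv`, Breaker replies `b`. -/
noncomputable def round (s : Finset Cell × Finset Cell) (b : Cell) :
    Finset Cell × Finset Cell := (insert (mv s.1 s.2) s.1, insert b s.2)

/-- The position after the given moves of Breaker. -/
noncomputable def st (l : List Cell) : Finset Cell × Finset Cell := l.foldl round (∅, ∅)

/-- The strategy. -/
noncomputable def strat (l : List Cell) : Cell := mv (st l).1 (st l).2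

theorem hist_succ (b : ℕ → Cell) (n : ℕ) : hist b (n + 1) = hist b n ++ [b n] := by
  simp [hist, List.range_succ]

theorem st_succ (b : ℕ → Cell) (n : ℕ) :
    st (hist b (n + 1)) = round (st (hist b n)) (b n) := by
  rw [hist_succ]; simp [st]

theorem st_fst (b : ℕ → Cell) (n : ℕ) : (st (hist b n)).1 = makerCells strat b n := by
  induction n with
  | zero => simp [hist, st, makerCells]
  | succ n ih =>
    rw [st_succ]
    simp only [round, makerCells, Finset.range_add_one, Finset.image_insert]
    rw [show (Finset.range n).image (fun k => strat (hist b k)) = makerCells strat b n from rfl,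
      ← ih]
    rfl

theorem st_snd (b : ℕ → Cell) (n : ℕ) : (st (hist b n)).2 = breakerCells b n := by
  induction n with
  | zero => simp [hist, st, breakerCells]
  | succ n ih =>
    rw [st_succ]
    simp only [round, breakerCells, Finset.range_add_one, Finset.image_insert]
    rw [ih]; rfl

theorem play_wins (b : ℕ → Cell) (hb : ∀ k, BreakerLegal strat b k) :
    ∀ n k, Win n (st (hist b k)).1 (st (hist b k)).2 → (∀ j < k, MakerLegal strat b j) →
      ∃ N, (∀ j < N, MakerLegal strat b j) ∧ HasCopy (makerCells strat b N) := by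
  classical
  intro n
  induction n using Nat.strong_induction_on with
  | _ n ih =>
    intro k hw hl
    by_cases hc : HasCopy (st (hist b k)).1
    · exact ⟨k, hl, by rwa [st_fst] at hc⟩
    by_cases hmin : ∃ j, j < n ∧ Win j (st (hist b k)).1 (st (hist b k)).2
    · obtain ⟨j, hj, hwj⟩ := hmin
      exact ih j hj k hwj hl
    cases n with
    | zero => exact absurd hw hc
    | succ n =>
      obtain ⟨h1, h2, h3⟩ := mv_spec hw hc hmin
      have hleg : MakerLegal strat b k := by
        constructor
        · rw [← st_fst]; exact h1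
        · rw [← st_snd]; exact h2
      have hb' := hb k
      have hw' : Win n (st (hist b (k + 1))).1 (st (hist b (k + 1))).2 := by
        rw [st_succ]
        apply h3
        · have := hb'.1
          rw [← st_fst, st_succ] at this
          exact this
        · have := hb'.2
          rw [← st_snd] at this
          exact this
      refine ih n (Nat.lt_succ_self n) (k + 1) hw' ?_
      intro j hj
      rcases Nat.lt_succ_iff_lt_or_eq.mp hj with h | h
      · exact hl j h
      · rw [h]; exact hleg

theorem makerWins_of_win {n : ℕ} (h : Win n ∅ ∅) : MakerWins := by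
  refine ⟨strat, fun b hb => ?_⟩
  exact play_wins b hb n 0 (by simpa [hist, st] using h) (by intro j hj; omega)

end Vale.Agent.P062
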