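import Vale.Agent.P062.Pattern

namespace Vale.Agent.P062

/-- The cell with index `i` in rows of width `w`. -/
def cell (w i : ℕ) : Cell := (((i % w : ℕ) : ℤ), ((i / w : ℕ) : ℤ))

/-- The set of cells coded by the mask `M`. -/
def cells (w M : ℕ) : Set Cell := {c | ∃ i, M.testBit i = true ∧ c = cell w i}

/-- All cells of the mask lie in the first `bx` columns. -/
def InBox (w bx M : ℕ) : Prop := ∀ i, M.testBit i = true → i % w < bx

/-- The pattern coded by the masks `M` (Maker's cells), `Z` (cells that are not Breaker's) is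
winning. -/
def W (w bx M Z : ℕ) : Prop := InBox w bx (Nat.lor M Z) ∧ WS (cells w M) (cells w Z)

theorem cell_inj {w i j : ℕ} (h : cell w i = cell w j) : i = j := by
  simp only [cell, Prod.mk.injEq, Nat.cast_inj] at h
  rw [← Nat.div_add_mod i w, ← Nat.div_add_mod j w, h.1, h.2]

theorem cells_mono {w M P : ℕ} (h : Nat.land M P = M) : cells w M ⊆ cells w P := by
  rintro c ⟨i, hi, rfl⟩
  refine ⟨i, ?_, rfl⟩
  rw [← h] at hi
  change (M &&& P).testBit i = true at hi
  rw [Nat.testBit_and] at hi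
  simp only [Bool.and_eq_true] at hi
  exact hi.2

theorem cells_inter {w I J : ℕ} : cells w I ∩ cells w J ⊆ cells w (Nat.land I J) := by
  rintro c ⟨⟨i, hi, rfl⟩, ⟨j, hj, hij⟩⟩
  have := cell_inj hij
  subst this
  refine ⟨i, ?_, rfl⟩
  change (I &&& J).testBit i = true
  rw [Nat.testBit_and, hi, hj]; rfl

theorem cells_or {w M P : ℕ} : cells w (Nat.lor M P) = cells w M ∪ cells w P := by
  ext c
  constructor
  · rintro ⟨i, hi, rfl⟩
    change (M ||| P).testBit i = true at hi
    rw [Nat.testBit_or] at hi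
    simp only [Bool.or_eq_true] at hi
    rcases hi with hi | hi
    · exact Or.inl ⟨i, hi, rfl⟩
    · exact Or.inr ⟨i, hi, rfl⟩
  · rintro (⟨i, hi, rfl⟩ | ⟨i, hi, rfl⟩) <;> refine ⟨i, ?_, rfl⟩ <;>
      change (M ||| P).testBit i = true <;> rw [Nat.testBit_or, hi] <;> simp

theorem cells_one {w i : ℕ} : cells w (Nat.shiftLeft 1 i) = {cell w i} := by
  ext c
  constructor
  · rintro ⟨j, hj, rfl⟩
    change (1 <<< i).testBit j = true at hj
    rw [Nat.one_shiftLeft, Nat.testBit_two_pow] at hj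
    have : i = j := by simpa using hj
    rw [this]; rfl
  · rintro rfl
    refine ⟨i, ?_, rfl⟩
    change (1 <<< i).testBit i = true
    rw [Nat.one_shiftLeft, Nat.testBit_two_pow]
    simp

theorem cells_insert {w M i : ℕ} :
    cells w (Nat.lor M (Nat.shiftLeft 1 i)) = insert (cell w i) (cells w M) := by
  rw [cells_or, cells_one, Set.union_comm]; rfl

theorem cell_shift {w i dx dy : ℕ} (h : i % w + dx < w) :
    cell w (i + (dx + w * dy)) = ((dx : ℤ), (dy : ℤ)) + cell w i := by
  have hw : 0 < w := by omega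
  have h1 : (i + (dx + w * dy)) % w = i % w + dx := by
    rw [← add_assoc, Nat.add_mul_mod_self_left, Nat.add_mod, Nat.mod_eq_of_lt (by omega : dx < w),
      Nat.mod_eq_of_lt h]
  have h2 : (i + (dx + w * dy)) / w = i / w + dy := by
    rw [← add_assoc, Nat.add_mul_div_left _ _ hw]
    congr 1
    have hi := Nat.div_add_mod i w
    conv_lhs => rw [← hi]
    rw [add_assoc, Nat.mul_add_div hw, Nat.div_eq_of_lt h, add_zero]
  simp only [cell, h1, h2]
  ext <;> push_cast <;> simp [add_comm]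

theorem cells_shift {w bx M dx dy : ℕ} (hb : InBox w bx M) (hw : bx + dx ≤ w) :
    cells w (Nat.shiftLeft M (dx + w * dy)) =
      (symm false 1 1 ((dx : ℤ), (dy : ℤ))) '' cells w M := by
  ext c
  constructor
  · rintro ⟨i, hi, rfl⟩
    change (M <<< (dx + w * dy)).testBit i = true at hi
    rw [Nat.testBit_shiftLeft] at hi
    simp only [Bool.and_eq_true, decide_eq_true_eq] at hi
    obtain ⟨hle, ht⟩ := hi
    refine ⟨cell w (i - (dx + w * dy)), ⟨_, ht, rfl⟩, ?_⟩
    have hlt := hb _ ht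
    have := cell_shift (w := w) (i := i - (dx + w * dy)) (dx := dx) (dy := dy) (by omega)
    rw [Nat.sub_add_cancel hle] at this
    rw [this, symm_apply]
    simp [rot]
  · rintro ⟨_, ⟨i, hi, rfl⟩, rfl⟩
    refine ⟨i + (dx + w * dy), ?_, ?_⟩
    · change (M <<< (dx + w * dy)).testBit (i + (dx + w * dy)) = true
      rw [Nat.testBit_shiftLeft, Nat.add_sub_cancel, hi]
      simp
    · have hlt := hb _ hi
      rw [cell_shift (by omega), symm_apply]
      simp [rot]

theorem InBox.left {w bx M Z : ℕ} (h : InBox w bx (Nat.lor M Z)) : InBox w bx M := by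
  intro i hi
  apply h
  change (M ||| Z).testBit i = true
  rw [Nat.testBit_or, hi]; rfl

theorem InBox.right {w bx M Z : ℕ} (h : InBox w bx (Nat.lor M Z)) : InBox w bx Z := by
  intro i hi
  apply h
  change (M ||| Z).testBit i = true
  rw [Nat.testBit_or, hi]; simp

theorem W.shift {w bx M Z : ℕ} (h : W w bx M Z) (dx dy : ℕ) (hw : bx + dx ≤ w) :
    WS (cells w (Nat.shiftLeft M (dx + w * dy))) (cells w (Nat.shiftLeft Z (dx + w * dy))) := by
  rw [cells_shift h.1.left hw, cells_shift h.1.right hw]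
  exact h.2.image (good_symm _ _ _ _)

/-- The Nat form of a partial cover. -/
def CovN (w P Z I : ℕ) : Prop := Cov (cells w P) (cells w Z) (cells w I)

/-- Boolean test for one reference. -/
def chk (w bx M Z dx dy P Q : ℕ) : Bool :=
  Nat.ble (bx + dx) w &&
    (Nat.beq (Nat.land (Nat.shiftLeft M (dx + w * dy)) P) (Nat.shiftLeft M (dx + w * dy)) &&
      Nat.beq (Nat.land (Nat.shiftLeft Z (dx + w * dy)) Q) (Nat.shiftLeft Z (dx + w * dy)))

theorem CovN.one {w bx M Z P Z' : ℕ} (h : W w bx M Z) (dx dy : ℕ)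
    (hc : chk w bx M Z dx dy P (Nat.lor P Z') = true) :
    CovN w P Z' (Nat.shiftLeft Z (dx + w * dy)) := by
  simp only [chk, Bool.and_eq_true] at hc
  obtain ⟨h1, h2, h3⟩ := hc
  have h1 := Nat.le_of_ble_eq_true h1
  have h2 := Nat.eq_of_beq_eq_true h2
  have h3 := Nat.eq_of_beq_eq_true h3
  refine Cov.one (h.shift dx dy h1) (cells_mono h2) ?_
  intro c hc
  have := cells_mono h3 hc
  rw [cells_or] at this
  exact this

theorem CovN.cons {w bx M Z P Z' I : ℕ} (hI : CovN w P Z' I) (h : W w bx M Z) (dx dy : ℕ)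
    (hc : chk w bx M Z dx dy P (Nat.lor P Z') = true) :
    CovN w P Z' (Nat.land I (Nat.shiftLeft Z (dx + w * dy))) := by
  obtain ⟨n, hn⟩ := Cov.inter hI (CovN.one h dx dy hc)
  refine ⟨n, fun A B hSA hd hTB b hbA hbB hbI => hn A B hSA hd hTB b hbA hbB ?_⟩
  intro hb
  exact hbI (cells_inter hb)

/-- Box test against the mask `L` of the first `bx` columns. -/
theorem inBox_of {w bx L M : ℕ} (hL : InBox w bx L) (h : Nat.beq (Nat.land M L) M = true) :
    InBox w bx M := by
  have h := Nat.eq_of_beq_eq_true h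
  intro i hi
  apply hL
  rw [← h] at hi
  change (M &&& L).testBit i = true at hi
  rw [Nat.testBit_and] at hi
  simp only [Bool.and_eq_true] at hi
  exact hi.2

/-- The rule: Maker plays cell `m` of `Z`. -/
theorem W.rule {w bx L M Z I : ℕ} (hL : InBox w bx L) (m : ℕ)
    (hI : CovN w (Nat.lor M (Nat.shiftLeft 1 m)) Z I)
    (hc : (Nat.beq (Nat.land (Nat.lor M Z) L) (Nat.lor M Z) && (Nat.testBit Z m &&
      Nat.beq (Nat.land I (Nat.lor M (Nat.shiftLeft 1 m))) I)) = true) :
    W w bx M Z := by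
  simp only [Bool.and_eq_true] at hc
  obtain ⟨h1, h2, h3⟩ := hc
  refine ⟨inBox_of hL h1, ?_⟩
  have h3 := Nat.eq_of_beq_eq_true h3
  have hsub := cells_mono (w := w) h3
  unfold CovN at hI
  rw [cells_insert] at hsub hI
  exact WS.of_cov ⟨m, h2, rfl⟩ hI hsub

/-! ### Symmetric variants -/

/-- The mask of a list of indices. -/
def mask : List ℕ → ℕ
  | [] => 0
  | c :: l => Nat.lor (Nat.shiftLeft 1 c) (mask l)

theorem cells_mask (w : ℕ) (l : List ℕ) : cells w (mask l) = {c | ∃ i ∈ l, c = cell w i} := by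
  induction l with
  | nil =>
    ext c
    simp [cells, mask]
  | cons a l ih =>
    rw [mask, cells_or, cells_one, ih]
    ext c
    simp

/-- The index of the image of the cell with index `i`. -/
def tr (w : ℕ) (s fx fy : Bool) (tx ty i : ℕ) : ℕ :=
  (cond fx (tx - cond s (i / w) (i % w)) (cond s (i / w) (i % w))) +
    w * (cond fy (ty - cond s (i % w) (i / w)) (cond s (i % w) (i / w)))

/-- No truncation and no wrapping for the cell with index `i`. -/
def trOk (w : ℕ) (s fx fy : Bool) (tx ty i : ℕ) : Bool :=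
  Nat.ble (cond fx (cond s (i / w) (i % w)) 0) (cond fx tx 0) &&
    (Nat.ble (cond fy (cond s (i % w) (i / w)) 0) (cond fy ty 0) &&
      Nat.blt (cond fx (tx - cond s (i / w) (i % w)) (cond s (i / w) (i % w))) w)

/-- The sign of a flip. -/
def sg (f : Bool) : ℤˣ := cond f (-1) 1

theorem cell_tr {w : ℕ} {s fx fy : Bool} {tx ty i : ℕ} (h : trOk w s fx fy tx ty i = true) :
    cell w (tr w s fx fy tx ty i) =
      symm s (sg fx) (sg fy) (((cond fx tx 0 : ℕ) : ℤ), ((cond fy ty 0 : ℕ) : ℤ)) (cell w i) := by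
  simp only [trOk, Bool.and_eq_true] at h
  obtain ⟨h1, h2, h3⟩ := h
  have h1 := Nat.le_of_ble_eq_true h1
  have h2 := Nat.le_of_ble_eq_true h2
  have h3 : (cond fx (tx - cond s (i / w) (i % w)) (cond s (i / w) (i % w))) < w :=
    Nat.le_of_ble_eq_true h3
  have hw : 0 < w := by omega
  have e1 : (tr w s fx fy tx ty i) % w =
      cond fx (tx - cond s (i / w) (i % w)) (cond s (i / w) (i % w)) := by
    unfold tr
    rw [Nat.add_mul_mod_self_left, Nat.mod_eq_of_lt h3]
  have e2 : (tr w s fx fy tx ty i) / w =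
      cond fy (ty - cond s (i % w) (i / w)) (cond s (i % w) (i / w)) := by
    unfold tr
    rw [Nat.add_mul_div_left _ _ hw, Nat.div_eq_of_lt h3, zero_add]
  rw [symm_apply]
  unfold cell
  rw [e1, e2]
  cases s <;> cases fx <;> cases fy <;> simp [rot, sg] at * <;> omega

theorem cells_tr {w : ℕ} {s fx fy : Bool} {tx ty : ℕ} {l : List ℕ}
    (h : l.all (trOk w s fx fy tx ty) = true) :
    cells w (mask (l.map (tr w s fx fy tx ty))) =
      symm s (sg fx) (sg fy) (((cond fx tx 0 : ℕ) : ℤ), ((cond fy ty 0 : ℕ) : ℤ)) ''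
        cells w (mask l) := by
  rw [cells_mask, cells_mask]
  rw [List.all_eq_true] at h
  ext c
  constructor
  · rintro ⟨j, hj, rfl⟩
    rw [List.mem_map] at hj
    obtain ⟨i, hi, rfl⟩ := hj
    exact ⟨cell w i, ⟨i, hi, rfl⟩, (cell_tr (h i hi)).symm⟩
  · rintro ⟨_, ⟨i, hi, rfl⟩, rfl⟩
    exact ⟨_, List.mem_map_of_mem hi, (cell_tr (h i hi)).symm⟩

/-- The list of the set bits of `M` (if `k` is their number). -/
def bits : ℕ → ℕ → List ℕ
  | 0, _ => []
  | k + 1, M => Nat.log2 M :: bits k (Nat.xor M (Nat.shiftLeft 1 (Nat.log2 M)))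

/-- Test for symmetric variants. -/
def chkSym (w : ℕ) (s fx fy : Bool) (tx ty : ℕ) (l1 l2 : List ℕ) (M Z M' Z' L : ℕ) : Bool :=
  Nat.beq (mask l1) M && (Nat.beq (mask l2) Z && (l1.all (trOk w s fx fy tx ty) &&
    (l2.all (trOk w s fx fy tx ty) && (Nat.beq (mask (l1.map (tr w s fx fy tx ty))) M' &&
      (Nat.beq (mask (l2.map (tr w s fx fy tx ty))) Z' &&
        Nat.beq (Nat.land (Nat.lor M' Z') L) (Nat.lor M' Z'))))))

theorem W.sym {w bx bx' L M Z M' Z' : ℕ} (h : W w bx M Z) (hL : InBox w bx' L)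
    (s fx fy : Bool) (tx ty k1 k2 : ℕ)
    (hc : chkSym w s fx fy tx ty (bits k1 M) (bits k2 Z) M Z M' Z' L = true) :
    W w bx' M' Z' := by
  simp only [chkSym, Bool.and_eq_true] at hc
  obtain ⟨h1, h2, h3, h4, h5, h6, h7⟩ := hc
  have h1 := Nat.eq_of_beq_eq_true h1
  have h2 := Nat.eq_of_beq_eq_true h2
  have h5 := Nat.eq_of_beq_eq_true h5
  have h6 := Nat.eq_of_beq_eq_true h6
  refine ⟨inBox_of hL h7, ?_⟩
  rw [← h5, ← h6, cells_tr h3, cells_tr h4, h1, h2]
  exact h.2.image (good_symm _ _ _ _)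

end Vale.Agent.P062
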