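import Vale.Agent.P062.Game

namespace Vale.Agent.P062

/-! ### Winning patterns: sets of cells `S` (Maker's) and `T` (not Breaker's) -/

/-- The pattern `(S, T)` is winning for Maker, who is to move: there is `n` such that Maker wins
within `n` moves from every position in which the cells of `S` are Maker's and no cell of `T` is
Breaker's. -/
def WS (S T : Set Cell) : Prop :=
  ∃ n, ∀ A B : Finset Cell, (∀ c ∈ S, c ∈ A) → Disjoint A B → (∀ c ∈ T, c ∉ B) → Win n A B

/-- Symmetries of the board that preserve copies. -/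
def Good (e : Cell ≃ Cell) : Prop := ∀ A : Finset Cell, HasCopy A → HasCopy (A.image e)

theorem Win.image {e : Cell ≃ Cell} (he : Good e) {n : ℕ} {A B : Finset Cell} (h : Win n A B) :
    Win n (A.image e) (B.image e) := by
  induction n generalizing A B with
  | zero => exact he _ h
  | succ n ih =>
    rcases h with h | ⟨m, h1, h2, h3⟩
    · exact Or.inl (he _ h)
    · refine Or.inr ⟨e m, ?_, ?_, ?_⟩
      · simpa using h1
      · simpa using h2
      · intro b hb1 hb2
        have hb : b = e (e.symm b) := by simp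
        have h1' : e.symm b ∉ insert m A := by
          intro hc
          apply hb1
          rw [hb]
          rw [Finset.mem_insert] at hc ⊢
          rcases hc with hc | hc
          · left; rw [hc]
          · right; exact Finset.mem_image_of_mem _ hc
        have h2' : e.symm b ∉ B := by
          intro hc
          apply hb2
          rw [hb]
          exact Finset.mem_image_of_mem _ hc
        have := ih (h3 (e.symm b) h1' h2')
        rw [Finset.image_insert, Finset.image_insert] at this
        rwa [← hb] at this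

theorem WS.image {e : Cell ≃ Cell} (he : Good e) {S T : Set Cell} (h : WS S T) :
    WS (e '' S) (e '' T) := by
  obtain ⟨n, hn⟩ := h
  refine ⟨n, fun A B hS hd hT => ?_⟩
  have key := hn (A.image e.symm) (B.image e.symm) ?_ ?_ ?_
  · have := key.image he
    rw [Finset.image_image, Finset.image_image] at this
    have h1 : (e ∘ e.symm : Cell → Cell) = id := by ext x <;> simp
    rw [h1, Finset.image_id, Finset.image_id] at this
    exact this
  · intro c hc
    rw [Finset.mem_image]
    exact ⟨e c, hS _ (Set.mem_image_of_mem _ hc), by simp⟩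
  · rw [Finset.disjoint_left] at hd ⊢
    intro c hc hc'
    rw [Finset.mem_image] at hc hc'
    obtain ⟨a, ha, rfl⟩ := hc
    obtain ⟨a', ha', h'⟩ := hc'
    have : a' = a := e.symm.injective h'
    subst this
    exact hd ha ha'
  · intro c hc hc'
    rw [Finset.mem_image] at hc'
    obtain ⟨a', ha', h'⟩ := hc'
    have : a' = e c := by rw [← h']; simp
    subst this
    exact hT _ (Set.mem_image_of_mem _ hc) ha'

/-- Partial cover: after Maker's move, Maker wins after every reply of Breaker outside `I`. -/
def Cov (S T I : Set Cell) : Prop :=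
  ∃ n, ∀ A B : Finset Cell, (∀ c ∈ S, c ∈ A) → Disjoint A B → (∀ c ∈ T, c ∉ B) →
    ∀ b, b ∉ A → b ∉ B → b ∉ I → Win n A (insert b B)

theorem Cov.one {S T S' T' : Set Cell} (h : WS S' T') (hS : S' ⊆ S) (hT : ∀ c ∈ T', c ∈ S ∨ c ∈ T) :
    Cov S T T' := by
  obtain ⟨n, hn⟩ := h
  refine ⟨n, fun A B hSA hd hTB b hbA hbB hbI => ?_⟩
  apply hn
  · intro c hc; exact hSA c (hS hc)
  · rw [Finset.disjoint_insert_right]; exact ⟨hbA, hd⟩
  · intro c hc
    rw [Finset.mem_insert, not_or]
    constructor
    · rintro rfl; exact hbI hc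
    · rcases hT c hc with h | h
      · exact Finset.disjoint_left.mp hd (hSA c h)
      · exact hTB c h

theorem Cov.inter {S T I J : Set Cell} (h : Cov S T I) (h' : Cov S T J) : Cov S T (I ∩ J) := by
  obtain ⟨n, hn⟩ := h
  obtain ⟨n', hn'⟩ := h'
  refine ⟨max n n', fun A B hSA hd hTB b hbA hbB hbI => ?_⟩
  by_cases hb : b ∈ I
  · have hb' : b ∉ J := fun hJ => hbI ⟨hb, hJ⟩
    exact (hn' A B hSA hd hTB b hbA hbB hb').mono (le_max_right _ _)
  · exact (hn A B hSA hd hTB b hbA hbB hb).mono (le_max_left _ _)

theorem WS.of_cov {S T I : Set Cell} {m : Cell} (hm : m ∈ T)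
    (h : Cov (insert m S) T I) (hI : I ⊆ insert m S) : WS S T := by
  obtain ⟨n, hn⟩ := h
  refine ⟨n + 1, fun A B hSA hd hTB => ?_⟩
  by_cases hmA : m ∈ A
  · obtain ⟨m', hm'⟩ := Infinite.exists_notMem_finset (A ∪ B)
    rw [Finset.mem_union, not_or] at hm'
    refine Or.inr ⟨m', hm'.1, hm'.2, fun b hb1 hb2 => ?_⟩
    have hsub : ∀ c ∈ insert m S, c ∈ insert m' A := by
      intro c hc
      rcases hc with rfl | hc
      · exact Finset.mem_insert_of_mem hmA
      · exact Finset.mem_insert_of_mem (hSA c hc)
    apply hn _ _ hsub _ hTB b hb1 hb2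
    · intro hbI; exact hb1 (hsub b (hI hbI))
    · rw [Finset.disjoint_insert_left]; exact ⟨hm'.2, hd⟩
  · refine Or.inr ⟨m, hmA, hTB m hm, fun b hb1 hb2 => ?_⟩
    have hsub : ∀ c ∈ insert m S, c ∈ insert m A := by
      intro c hc
      rcases hc with rfl | hc
      · exact Finset.mem_insert_self _ _
      · exact Finset.mem_insert_of_mem (hSA c hc)
    apply hn _ _ hsub _ hTB b hb1 hb2
    · intro hbI; exact hb1 (hsub b (hI hbI))
    · rw [Finset.disjoint_insert_left]; exact ⟨hTB m hm, hd⟩

theorem WS.mono {S T S' T' : Set Cell} (h : WS S' T') (hS : S' ⊆ S) (hT : ∀ c ∈ T', c ∈ S ∨ c ∈ T) :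
    WS S T := by
  obtain ⟨n, hn⟩ := h
  refine ⟨n, fun A B hSA hd hTB => hn A B (fun c hc => hSA c (hS hc)) hd fun c hc => ?_⟩
  rcases hT c hc with h | h
  · exact Finset.disjoint_left.mp hd (hSA c h)
  · exact hTB c h

theorem WS.base {S T : Set Cell} {C : Finset Cell} (hC : IsCopy C) (h : ∀ c ∈ C, c ∈ S) :
    WS S T :=
  ⟨0, fun _ _ hSA _ _ => ⟨C, hC, fun c hc => hSA c (h c hc)⟩⟩

/-- The empty board is a win as soon as a pattern with at most one Maker cell is winning:
`WS ∅ T` gives a winning strategy. -/
theorem makerWins_of_WS {T : Set Cell} (h : WS ∅ T) : MakerWins := by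
  obtain ⟨n, hn⟩ := h
  exact makerWins_of_win (hn ∅ ∅ (by simp) (by simp) (by simp))

/-! ### The symmetries -/

/-- The board symmetry `p ↦ t + rot s a b p`. -/
def symm (s : Bool) (a b : ℤˣ) (t : Cell) : Cell ≃ Cell where
  toFun p := t + rot s a b p
  invFun q := if s then rot true b a (q - t) else rot false a b (q - t)
  left_inv p := by
    rcases Int.units_eq_one_or a with rfl | rfl <;> rcases Int.units_eq_one_or b with rfl | rfl <;>
      cases s <;> simp [rot]
  right_inv q := by
    rcases Int.units_eq_one_or a with rfl | rfl <;> rcases Int.units_eq_one_or b with rfl | rfl <;>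
      cases s <;> ext <;> simp [rot]

theorem symm_apply (s : Bool) (a b : ℤˣ) (t p : Cell) : symm s a b t p = t + rot s a b p := rfl

theorem rot_rot (s s' : Bool) (a b a' b' : ℤˣ) (p : Cell) :
    rot s a b (rot s' a' b' p) =
      rot (xor s s') (if s then a * b' else a * a') (if s then b * a' else b * b') p := by
  cases s <;> cases s' <;> simp [rot, mul_assoc]

theorem rot_add (s : Bool) (a b : ℤˣ) (p q : Cell) :
    rot s a b (p + q) = rot s a b p + rot s a b q := by
  cases s <;> simp [rot, mul_add]

theorem good_symm (s : Bool) (a b : ℤˣ) (t : Cell) : Good (symm s a b t) := by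
  intro A hA
  obtain ⟨C, ⟨s', a', b', t', rfl⟩, hC⟩ := hA
  refine ⟨(snaky.image (fun p => t' + rot s' a' b' p)).image (symm s a b t),
    ⟨xor s s', if s then a * b' else a * a', if s then b * a' else b * b', t + rot s a b t', ?_⟩,
    Finset.image_subset_image hC⟩
  rw [Finset.image_image]
  apply Finset.image_congr
  intro p _
  simp only [Function.comp, symm_apply, rot_add, rot_rot]
  rw [add_assoc]

end Vale.Agent.P062
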