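import Vale.Agent.P062.Mask

namespace Vale.Agent.P062

/-- A list of proved patterns with translations. -/
inductive Refs (w : ℕ) : List (ℕ × ℕ × ℕ × ℕ × ℕ) → Prop
  | nil : Refs w []
  | cons {bx M Z : ℕ} {l : List (ℕ × ℕ × ℕ × ℕ × ℕ)} (h : W w bx M Z) (dx dy : ℕ)
      (t : Refs w l) : Refs w ((bx, M, Z, dx, dy) :: l)

/-- Check the references one after another; `I` is the intersection so far. -/
def chkRefs (w P Q : ℕ) : List (ℕ × ℕ × ℕ × ℕ × ℕ) → ℕ → Bool
  | [], I => Nat.beq (Nat.land I P) I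
  | (bx, M, Z, dx, dy) :: l, I =>
    chk w bx M Z dx dy P Q && chkRefs w P Q l (Nat.land I (Nat.shiftLeft Z (dx + w * dy)))

/-- The complete test of the rule; the first reference starts the intersection. -/
def chkRule (w L M Z m : ℕ) : List (ℕ × ℕ × ℕ × ℕ × ℕ) → Bool
  | [] => false
  | (bx, M', Z', dx, dy) :: l =>
    (Nat.beq (Nat.land (Nat.lor M Z) L) (Nat.lor M Z) && (Nat.testBit Z m &&
      (chk w bx M' Z' dx dy (Nat.lor M (Nat.shiftLeft 1 m))
        (Nat.lor (Nat.lor M (Nat.shiftLeft 1 m)) Z) &&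
       chkRefs w (Nat.lor M (Nat.shiftLeft 1 m)) (Nat.lor (Nat.lor M (Nat.shiftLeft 1 m)) Z) l
        (Nat.shiftLeft Z' (dx + w * dy)))))

theorem chkRefs_sound {w P Z : ℕ} {l : List (ℕ × ℕ × ℕ × ℕ × ℕ)} (hr : Refs w l) :
    ∀ {I : ℕ}, CovN w P Z I → chkRefs w P (Nat.lor P Z) l I = true →
      ∃ J, CovN w P Z J ∧ Nat.beq (Nat.land J P) J = true := by
  induction hr with
  | nil => intro I hI hc; exact ⟨I, hI, hc⟩
  | cons h dx dy t ih =>
    intro I hI hc
    simp only [chkRefs, Bool.and_eq_true] at hc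
    exact ih (CovN.cons hI h dx dy hc.1) hc.2

theorem W.rule2 {w bx L M Z : ℕ} {l : List (ℕ × ℕ × ℕ × ℕ × ℕ)} (hL : InBox w bx L) (m : ℕ)
    (hr : Refs w l) (hc : chkRule w L M Z m l = true) : W w bx M Z := by
  cases hr with
  | nil => simp [chkRule] at hc
  | cons h dx dy t =>
    simp only [chkRule, Bool.and_eq_true] at hc
    obtain ⟨h1, h2, h3, h4⟩ := hc
    obtain ⟨J, hJ, hJ'⟩ := chkRefs_sound t (CovN.one h dx dy h3) h4
    exact W.rule hL m hJ (by simp only [Bool.and_eq_true]; exact ⟨h1, h2, hJ'⟩)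

theorem inBox_of_check {w bx N L : ℕ} (hN : L < 2 ^ N)
    (h : (List.range N).all (fun i => !(L.testBit i) || decide (i % w < bx)) = true) :
    InBox w bx L := by
  intro i hi
  rw [List.all_eq_true] at h
  have hlt : i < N := by
    by_contra hc
    have := Nat.testBit_lt_two_pow
      (lt_of_lt_of_le hN (Nat.pow_le_pow_right (by norm_num) (not_lt.mp hc)))
    rw [this] at hi
    exact Bool.noConfusion hi
  have := h i (List.mem_range.mpr hlt)
  simpa [hi] using this

/-- The base pattern: Maker owns Snaky. -/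
theorem base_of {w bx L M : ℕ} (hL : InBox w bx L)
    (hM : Nat.beq (Nat.land (Nat.lor M 0) L) (Nat.lor M 0) = true)
    (l : List ℕ) (h : l.all (fun i => M.testBit i) = true)
    (h2 : snaky = (l.map (cell w)).toFinset) : W w bx M 0 := by
  refine ⟨inBox_of hL hM, WS.base (C := snaky) ⟨false, 1, 1, (0, 0), by decide⟩ ?_⟩
  intro c hc
  rw [h2, List.mem_toFinset, List.mem_map] at hc
  obtain ⟨i, hi, rfl⟩ := hc
  rw [List.all_eq_true] at h
  exact ⟨i, h i hi, rfl⟩

end Vale.Agent.P062
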