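import Vale.Agent.P062.Rule

namespace Vale.Agent.P062

/-- Swap the bits `i` and `i + d` of `x` for every bit `i` of `m`. -/
def swp (d m x : ℕ) : ℕ :=
  Nat.xor x (Nat.xor (Nat.land (Nat.xor x (Nat.shiftRight x d)) m)
    (Nat.shiftLeft (Nat.land (Nat.xor x (Nat.shiftRight x d)) m) d))

/-- The index permutation of `swp`. -/
def sgm (d m i : ℕ) : ℕ :=
  if m.testBit i = true then i + d else if d ≤ i ∧ m.testBit (i - d) = true then i - d else i

theorem testBit_swp {d m x i : ℕ} (hd : Nat.land m (Nat.shiftLeft m d) = 0) :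
    (swp d m x).testBit i = x.testBit (sgm d m i) := by
  have hdis : ∀ j, m.testBit j = true → d ≤ j → m.testBit (j - d) = true → False := by
    intro j h1 h2 h3
    have h4 : (m &&& (m <<< d)).testBit j = true := by
      rw [Nat.testBit_and, Nat.testBit_shiftLeft, h1, h3]; simp [h2]
    change m &&& (m <<< d) = 0 at hd
    rw [hd] at h4; simp at h4
  change (x ^^^ (((x ^^^ (x >>> d)) &&& m) ^^^ (((x ^^^ (x >>> d)) &&& m) <<< d))).testBit i = _
  simp only [Nat.testBit_xor, Nat.testBit_and, Nat.testBit_shiftLeft, Nat.testBit_shiftRight]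
  unfold sgm
  by_cases h1 : m.testBit i = true
  · rw [if_pos h1]
    by_cases h2 : d ≤ i
    · have h3 : m.testBit (i - d) = false := by
        by_contra h; exact hdis i h1 h2 (by simpa using h)
      simp [h1, h3, add_comm d i]
    · simp [h1, h2, add_comm d i]
  · rw [if_neg h1]
    have h1' : m.testBit i = false := by simpa using h1
    by_cases h2 : d ≤ i
    · by_cases h3 : m.testBit (i - d) = true
      · rw [if_pos ⟨h2, h3⟩]
        have : d + (i - d) = i := by omega
        simp [h1', h3, h2, this]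
        cases x.testBit i <;> cases x.testBit (i - d) <;> rfl
      · rw [if_neg (fun h => h3 h.2)]
        have h3' : m.testBit (i - d) = false := by simpa using h3
        simp [h1', h3']
    · rw [if_neg (fun h => h2 h.1)]
      simp [h1', h2]

/-- Run a list of swaps. -/
def runS : List (ℕ × ℕ) → ℕ → ℕ
  | [], x => x
  | (d, m) :: l, x => runS l (swp d m x)

/-- The index permutation of `runS`. -/
def piS : List (ℕ × ℕ) → ℕ → ℕ
  | [], i => i
  | (d, m) :: l, i => sgm d m (piS l i)

/-- Validity of a list of swaps on `N` bits. -/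
def okS (N : ℕ) (l : List (ℕ × ℕ)) : Bool :=
  l.all (fun p => Nat.beq (Nat.land p.2 (Nat.shiftLeft p.2 p.1)) 0 &&
    Nat.beq (Nat.shiftRight (Nat.shiftLeft p.2 p.1) N) 0)

theorem lt_of_shr {x N : ℕ} (h : Nat.beq (Nat.shiftRight x N) 0 = true) : x < 2 ^ N := by
  have h := Nat.eq_of_beq_eq_true h
  change x >>> N = 0 at h
  rw [Nat.shiftRight_eq_div_pow] at h
  exact (Nat.div_eq_zero_iff_lt (by positivity)).mp h

theorem testBit_runS {N : ℕ} {l : List (ℕ × ℕ)} (hl : okS N l = true) :
    ∀ (x i : ℕ), (runS l x).testBit i = x.testBit (piS l i) := by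
  induction l with
  | nil => intro x i; rfl
  | cons p l ih =>
    obtain ⟨d, m⟩ := p
    intro x i
    simp only [okS, List.all_cons, Bool.and_eq_true] at hl
    obtain ⟨⟨h1, h2⟩, h3⟩ := hl
    rw [runS, ih h3, piS, testBit_swp (Nat.eq_of_beq_eq_true h1)]

theorem piS_ge {N : ℕ} {l : List (ℕ × ℕ)} (hl : okS N l = true) :
    ∀ i, N ≤ i → piS l i = i := by
  induction l with
  | nil => intro i _; rfl
  | cons p l ih =>
    obtain ⟨d, m⟩ := p
    intro i hi
    simp only [okS, List.all_cons, Bool.and_eq_true] at hl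
    obtain ⟨⟨h1, h2⟩, h3⟩ := hl
    rw [piS, ih h3 i hi]
    have hlt := lt_of_shr h2
    have hb : ∀ j, N ≤ j → (m <<< d).testBit j = false := fun j hj =>
      Nat.testBit_lt_two_pow (lt_of_lt_of_le hlt (Nat.pow_le_pow_right (by norm_num) hj))
    unfold sgm
    have h4 : m.testBit i = false := by
      have := hb (i + d) (by omega)
      rw [Nat.testBit_shiftLeft] at this
      simpa using this
    rw [if_neg (by simp [h4]), if_neg]
    rintro ⟨h5, h6⟩
    have := hb i hi
    rw [Nat.testBit_shiftLeft, h6] at this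
    simp [h5] at this

/-- `T` acts on masks of `N` bits as a symmetry of the board. -/
def IsT (w N : ℕ) (T : ℕ → ℕ) : Prop :=
  ∃ G : Cell ≃ Cell, Good G ∧ ∀ M < 2 ^ N, T M < 2 ^ N ∧ cells w (T M) = G '' cells w M

theorem IsT.id {w N : ℕ} : IsT w N (fun x => x) := by
  refine ⟨Equiv.refl _, ?_, fun M hM => ⟨hM, by simp⟩⟩
  intro A hA
  simpa using hA

theorem Good.trans {e e' : Cell ≃ Cell} (h : Good e) (h' : Good e') : Good (e.trans e') := by
  intro A hA
  have := h' _ (h A hA)
  rw [Finset.image_image] at this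
  exact this

theorem IsT.comp {w N : ℕ} {T T' : ℕ → ℕ} (h : IsT w N T) (h' : IsT w N T') :
    IsT w N (fun x => T (T' x)) := by
  obtain ⟨G, hG, hT⟩ := h
  obtain ⟨G', hG', hT'⟩ := h'
  refine ⟨G'.trans G, hG'.trans hG, fun M hM => ?_⟩
  obtain ⟨h1, h2⟩ := hT' M hM
  obtain ⟨h3, h4⟩ := hT (T' M) h1
  refine ⟨h3, ?_⟩
  rw [h4, h2, ← Set.image_comp]
  rfl

theorem isT_run {w N : ℕ} {l : List (ℕ × ℕ)} (hl : okS N l = true) (f : ℕ → ℕ)
    (G : Cell ≃ Cell) (hG : Good G)
    (hf : ∀ i < N, piS l i = f i ∧ f i < N ∧ f (f i) = i ∧ cell w (f i) = G (cell w i)) :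
    IsT w N (runS l) := by
  refine ⟨G, hG, fun M hM => ?_⟩
  have hbit : ∀ i, M.testBit i = true → i < N := by
    intro i hi
    by_contra hc
    have := Nat.testBit_lt_two_pow
      (lt_of_lt_of_le hM (Nat.pow_le_pow_right (by norm_num) (not_lt.mp hc)))
    rw [this] at hi
    exact Bool.noConfusion hi
  have hbit2 : ∀ i, (runS l M).testBit i = true → i < N := by
    intro i hi
    by_contra hc
    rw [testBit_runS hl, piS_ge hl i (not_lt.mp hc)] at hi
    exact hc (hbit i hi)
  constructor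
  · apply Nat.lt_pow_two_of_testBit
    intro i hi
    by_contra hc
    have := hbit2 i (by simpa using hc)
    omega
  · ext c
    constructor
    · rintro ⟨i, hi, rfl⟩
      have hiN := hbit2 i hi
      rw [testBit_runS hl, (hf i hiN).1] at hi
      refine ⟨cell w (f i), ⟨_, hi, rfl⟩, ?_⟩
      rw [← (hf (f i) (hf i hiN).2.1).2.2.2, (hf i hiN).2.2.1]
    · rintro ⟨_, ⟨i, hi, rfl⟩, rfl⟩
      have hiN := hbit i hi
      refine ⟨f i, ?_, (hf i hiN).2.2.2.symm⟩
      rw [testBit_runS hl, (hf (f i) (hf i hiN).2.1).1, (hf i hiN).2.2.1]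
      exact hi

/-- Test for symmetric variants; `A`, `B` are the images of `M`, `Z`. -/
def chkT (w N M Z A B bx' L dx dy M' Z' : ℕ) : Bool :=
  Nat.beq (Nat.shiftRight (Nat.lor M Z) N) 0 && (Nat.ble (bx' + dx) w &&
    (Nat.beq (Nat.land (Nat.lor M' Z') L) (Nat.lor M' Z') &&
      (Nat.beq (Nat.shiftLeft M' (dx + w * dy)) A &&
        Nat.beq (Nat.shiftLeft Z' (dx + w * dy)) B)))

theorem Good.shift_symm (t : Cell) : Good (symm false 1 1 t).symm := by
  have : (symm false 1 1 t).symm = symm false 1 1 (-t) := by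
    ext p <;> simp [symm, rot] <;> ring
  rw [this]
  exact good_symm _ _ _ _

theorem W.symT {w N bx bx' L M Z M' Z' : ℕ} {T : ℕ → ℕ} (hT : IsT w N T) (h : W w bx M Z)
    (hL : InBox w bx' L) (dx dy : ℕ)
    (hc : chkT w N M Z (T M) (T Z) bx' L dx dy M' Z' = true) :
    W w bx' M' Z' := by
  simp only [chkT, Bool.and_eq_true] at hc
  obtain ⟨h1, h2, h3, h4, h5⟩ := hc
  have h1 := lt_of_shr h1
  have h2 := Nat.le_of_ble_eq_true h2
  have h4 := Nat.eq_of_beq_eq_true h4
  have h5 := Nat.eq_of_beq_eq_true h5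
  have hbox := inBox_of hL h3
  have hM : M < 2 ^ N := lt_of_le_of_lt (Nat.left_le_or (n := M) (m := Z)) h1
  have hZ : Z < 2 ^ N := lt_of_le_of_lt (Nat.right_le_or (n := M) (m := Z)) h1
  obtain ⟨G, hG, hT⟩ := hT
  refine ⟨hbox, ?_⟩
  have key := h.2.image hG
  rw [← (hT M hM).2, ← (hT Z hZ).2, ← h4, ← h5, cells_shift hbox.left h2,
    cells_shift hbox.right h2] at key
  have key2 := key.image (Good.shift_symm ((dx : ℤ), (dy : ℤ)))
  rw [← Set.image_comp, ← Set.image_comp] at key2
  simpa using key2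

end Vale.Agent.P062
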